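import Vale.Agent.P207.FDefs
import Vale.Agent.P109.H787.Shannon

/-!
# P207: the limits in the definitions of the two entropies exist
-/

open MeasureTheory Set Filter Topology
open scoped ENNReal

namespace Vale.Agent.P207I

open Vale.Agent.P207F

theorem shannon_name_add {X : Type} [MeasurableSpace X] {μ : Measure X} [IsProbabilityMeasure μ]
    {T : X → X} (hT : MeasurePreserving T μ μ) {d : ℕ} {f : X → Fin d} (hf : Measurable f)
    (m n : ℕ) :
    shannon μ (name T f (m + n)) ≤ shannon μ (name T f m) + shannon μ (name T f n) := by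
  have k : ∀ n a, MeasurableSet (name T f n ⁻¹' {a}) := fun n a =>
    P109.KS.measurableSet_name hT.measurable (fun b => hf (measurableSet_singleton b)) n a
  have k' : ∀ a, MeasurableSet ((fun x => name T f n (T^[m] x)) ⁻¹' {a}) :=
    P109.KS.measurableSet_comp_iterate hT.measurable (k n) m
  obtain ⟨φ, hφ⟩ : ∃ φ : (Fin m → Fin d) × (Fin n → Fin d) → Fin (m + n) → Fin d,
      name T f (m + n) = fun x => φ (name T f m x, name T f n (T^[m] x)) := by
    refine ⟨fun q => Fin.append q.1 q.2, funext fun x => funext fun i => ?_⟩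
    refine Fin.addCases (fun i => ?_) (fun i => ?_) i
    · simp [name]
    · simp [name, add_comm m, Function.iterate_add_apply]
  have h2 : ∀ q, MeasurableSet ((fun x => (name T f m x, name T f n (T^[m] x))) ⁻¹' {q}) := by
    intro q
    have h3 : (fun x => (name T f m x, name T f n (T^[m] x))) ⁻¹' {q} =
        name T f m ⁻¹' {q.1} ∩ (fun x => name T f n (T^[m] x)) ⁻¹' {q.2} := by
      ext x
      simp [Prod.ext_iff]
    rw [h3]
    exact (k m q.1).inter (k' q.2)
  have h6 := P109.KS.shannon_comp_le (μ := μ) h2 φ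
  have h5 := P109.KS.shannon_prod_le (μ := μ) (k m) k'
  rw [P109.KS.shannon_comp_iterate hT (k n)] at h5
  rw [hφ]
  exact h6.trans h5

/-- the limit in the definition of the Kolmogorov-Sinai entropy exists -/
theorem ks_lim {X : Type} [MeasurableSpace X] {μ : Measure X} [IsProbabilityMeasure μ]
    {T : X → X} (hT : MeasurePreserving T μ μ) {d : ℕ} {f : X → Fin d} (hf : Measurable f) :
    ∃ L : ℝ, Tendsto (fun n : ℕ => shannon μ (name T f n) / n) atTop (𝓝 L) := by
  have s : Subadditive fun n => shannon μ (name T f n) := shannon_name_add hT hf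
  refine ⟨_, s.tendsto_lim ⟨0, ?_⟩⟩
  rintro _ ⟨n, rfl⟩
  exact div_nonneg (Finset.sum_nonneg fun a _ =>
    Real.negMulLog_nonneg measureReal_nonneg measureReal_le_one) n.cast_nonneg

theorem coverNum_spec {X : Type} (T : X → X) {k : ℕ} {U : Fin k → Set X}
    (hU : ⋃ i, U i = univ) (n : ℕ) : ∃ W : Finset (Fin n → Fin k), W.card = coverNum T U n ∧
      ∀ x, ∃ w ∈ W, ∀ i : Fin n, T^[i] x ∈ U (w i) := by
  have hne : {m | ∃ W : Finset (Fin n → Fin k), W.card = m ∧
    ∀ x, ∃ w ∈ W, ∀ i : Fin n, T^[i] x ∈ U (w i)}.Nonempty := by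
    refine ⟨_, Finset.univ, rfl, fun x => ?_⟩
    choose f hf using fun y : X => mem_iUnion.1 (hU ▸ mem_univ y : y ∈ ⋃ i, U i)
    exact ⟨fun i => f (T^[i] x), Finset.mem_univ _, fun i => hf _⟩
  exact Nat.sInf_mem hne

theorem coverNum_add {X : Type} (T : X → X) {k : ℕ} {U : Fin k → Set X}
    (hU : ⋃ i, U i = univ) (m n : ℕ) :
    coverNum T U (m + n) ≤ coverNum T U m * coverNum T U n := by
  classical
  obtain ⟨A, hA, hA'⟩ := coverNum_spec T hU m
  obtain ⟨B, hB, hB'⟩ := coverNum_spec T hU n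
  rw [← hA, ← hB, ← Finset.card_product]
  refine le_trans (Nat.sInf_le ⟨(A ×ˢ B).image fun q => Fin.append q.1 q.2, rfl, fun x => ?_⟩)
    Finset.card_image_le
  obtain ⟨a, ha, ha'⟩ := hA' x
  obtain ⟨b, hb, hb'⟩ := hB' (T^[m] x)
  refine ⟨Fin.append a b, Finset.mem_image.2 ⟨(a, b), Finset.mk_mem_product ha hb, rfl⟩,
    fun i => Fin.addCases (fun i => ?_) (fun i => ?_) i⟩
  · simpa using ha' i
  · simpa [add_comm m, Function.iterate_add_apply] using hb' i

/-- the limit in the definition of the topological entropy exists -/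
theorem top_lim {X : Type} (T : X → X) {k : ℕ} {U : Fin k → Set X} (hU : ⋃ i, U i = univ) :
    ∃ L : ℝ, Tendsto (fun n : ℕ => Real.log (coverNum T U n) / n) atTop (𝓝 L) := by
  have s : Subadditive fun n => Real.log (coverNum T U n) := by
    intro m n
    have h := coverNum_add T hU m n
    have h1 := Real.log_natCast_nonneg (coverNum T U m)
    have h2 := Real.log_natCast_nonneg (coverNum T U n)
    rcases Nat.eq_zero_or_pos (coverNum T U (m + n)) with h0 | h0
    · simp only [h0, Nat.cast_zero, Real.log_zero]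
      exact add_nonneg h1 h2
    · obtain ⟨ha, hb⟩ := mul_ne_zero_iff.1 (h0.trans_le h).ne'
      beta_reduce
      rw [← Real.log_mul (Nat.cast_ne_zero.2 ha) (Nat.cast_ne_zero.2 hb)]
      exact Real.log_le_log (Nat.cast_pos.2 h0) (by exact_mod_cast h)
  refine ⟨_, s.tendsto_lim ⟨0, ?_⟩⟩
  rintro _ ⟨n, rfl⟩
  exact div_nonneg (Real.log_natCast_nonneg _) n.cast_nonneg

/-- a limit is the upper limit used in `ksEntropy` and `topEntropy` -/
theorem limsup_of_lim {u : ℕ → ℝ} {L : ℝ} (h : Tendsto u atTop (𝓝 L)) :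
    limsup (fun n => ENNReal.ofReal (u n)) atTop = ENNReal.ofReal L :=
  (ENNReal.tendsto_ofReal h).limsup_eq

end Vale.Agent.P207I
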