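import Vale.Agent.P207.FDefs

/-!
# P207: the measures `σ_x` and `m_L`
-/

open scoped Manifold ContDiff
open Bundle MeasureTheory

noncomputable section

namespace Vale.Agent.P207I

open Vale.Agent.P255 (RMetric innerAt)
open Vale.Agent.P207F (UT)

variable {E : Type} [NormedAddCommGroup E] [NormedSpace ℝ E]
  {M : Type} [TopologicalSpace M] [ChartedSpace E M] [IsManifold 𝓘(ℝ, E) ∞ M]

/-- The unit sphere `S_x M`; as a vector space `T_x M` is `E`. -/
abbrev Sph (g : RMetric E M) (x : M) : Type := {v : E // innerAt g x v v = 1}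

/-- `R` is a rotation of `S_x M`: the restriction of a linear isometry of `(T_x M, g_x)` of
determinant one. -/
def IsRotation (g : RMetric E M) (x : M) (R : Sph g x → Sph g x) : Prop :=
  ∃ T : E →ₗ[ℝ] E, LinearMap.det T = 1 ∧ (∀ v w, innerAt g x (T v) (T w) = innerAt g x v w) ∧
    ∀ v, (R v).1 = T v.1

/-- `σ` is a rotation-invariant probability measure on `S_x M`. -/
def IsRotInv [MeasurableSpace E] (g : RMetric E M) (x : M) (σ : Measure (Sph g x)) : Prop :=
  IsProbabilityMeasure σ ∧ ∀ R, IsRotation g x R → MeasurePreserving R σ σ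

/-- `m` is a probability measure with `∫ a dm = (1 / Vol M) ∫_M ∫_{S_x M} a(x, v) dσ_x(v) dμ(x)`
for all continuous `a`. -/
def IsLiouvilleMeasure [MeasurableSpace E] [MeasurableSpace M] (g : RMetric E M)
    (σ : (x : M) → Measure (Sph g x)) (μ : Measure M) (m : Measure (UT g)) : Prop :=
  IsProbabilityMeasure m ∧ ∀ a : UT g → ℝ, Continuous a →
    ∫ p, a p ∂m = (μ.real Set.univ)⁻¹ * ∫ x, (∫ v, a ⟨⟨x, v.1⟩, v.2⟩ ∂σ x) ∂μ

end Vale.Agent.P207I
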